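import Vale.Agent.P216.Hol.Struct

/-!
# The double cover of the energy sublevels (P216, row DC)

`Xt H s = {(g, z) | g ∈ XE M s, z ^ 2 = H.hol g}` inside the ambient metric space `LM M × ℂ`.
-/

namespace Vale.Agent.P216.H288

open Set Filter Topology Vale.Agent.P216.L250
open scoped ComplexConjugate

variable {M : Type*} [MetricSpace M]

/-- The double cover of the energy sublevel `XE M s`. -/
def Xt (H : Hol M) (s : ℝ) : Set (LM M × ℂ) := {q | q.1 ∈ XE M s ∧ q.2 ^ 2 = H.hol q.1}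

variable {H : Hol M} {s s' : ℝ} {q q' : LM M × ℂ}

theorem mem_Xt : q ∈ Xt H s ↔ q.1 ∈ XE M s ∧ q.2 ^ 2 = H.hol q.1 := Iff.rfl

theorem norm_snd_of_sq {H : Hol M} {q : LM M × ℂ} (h : q.2 ^ 2 = H.hol q.1) : ‖q.2‖ = 1 := by
  have h1 : ‖q.2‖ ^ 2 = 1 := by rw [← norm_pow, h, H.norm_hol]
  exact (pow_eq_one_iff_of_nonneg (norm_nonneg _) two_ne_zero).1 h1

theorem norm_snd (h : q ∈ Xt H s) : ‖q.2‖ = 1 := norm_snd_of_sq h.2

theorem snd_ne_zero (h : q ∈ Xt H s) : q.2 ≠ 0 := by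
  intro h0
  have := norm_snd h
  rw [h0, norm_zero] at this
  exact zero_ne_one this

theorem snd_mul_conj (h : q ∈ Xt H s) : q.2 * conj q.2 = 1 := by
  rw [Complex.mul_conj, Complex.normSq_eq_norm_sq, norm_snd h]
  norm_num

theorem Xt_mono (h0 : 0 ≤ s) (h : s ≤ s') : Xt H s ⊆ Xt H s' :=
  fun _ hq => ⟨XE_mono h0 h hq.1, hq.2⟩

theorem Xt_subset_prod : Xt H s ⊆ XE M s ×ˢ Metric.closedBall (0 : ℂ) 1 := fun q hq =>
  ⟨hq.1, by rw [mem_closedBall_zero_iff, norm_snd hq]⟩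

theorem isClosed_Xt : IsClosed (Xt H s) := by
  have h1 : Xt H s = (XE M s ×ˢ (univ : Set ℂ)) ∩ (fun q : LM M × ℂ => q.2 ^ 2 - H.hol q.1) ⁻¹' {0} := by
    ext q
    simp only [mem_Xt, mem_inter_iff, mem_prod, mem_univ, and_true, mem_preimage,
      mem_singleton_iff, sub_eq_zero]
  rw [h1]
  refine ContinuousOn.preimage_isClosed_of_isClosed ?_ (isClosed_XE.prod isClosed_univ)
    isClosed_singleton
  exact (continuous_snd.pow 2).continuousOn.sub
    ((H.continuousOn_hol s).comp continuousOn_fst fun q hq => hq.1)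

theorem isCompact_Xt [CompactSpace M] (h0 : 0 ≤ s) : IsCompact (Xt H s) :=
  ((isCompact_XE h0).prod (isCompact_closedBall (0 : ℂ) 1)).of_isClosed_subset isClosed_Xt
    Xt_subset_prod

/-! ### The symmetries -/

/-- The deck transformation. -/
def deckC (q : LM M × ℂ) : LM M × ℂ := (q.1, -q.2)

/-- Rotation by `a`. -/
def rotC (a : ℝ) (q : LM M × ℂ) : LM M × ℂ := (rot a q.1, q.2)

/-- Reversal. -/
def revC (q : LM M × ℂ) : LM M × ℂ := (rev q.1, conj q.2)

/-- Iteration. -/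
def iterC (p : ℕ) (q : LM M × ℂ) : LM M × ℂ := (iter p q.1, q.2 ^ p)

@[simp] theorem deckC_fst (q : LM M × ℂ) : (deckC q).1 = q.1 := rfl
@[simp] theorem deckC_snd (q : LM M × ℂ) : (deckC q).2 = -q.2 := rfl
@[simp] theorem rotC_fst (a : ℝ) (q : LM M × ℂ) : (rotC a q).1 = rot a q.1 := rfl
@[simp] theorem rotC_snd (a : ℝ) (q : LM M × ℂ) : (rotC a q).2 = q.2 := rfl
@[simp] theorem revC_fst (q : LM M × ℂ) : (revC q).1 = rev q.1 := rfl
@[simp] theorem revC_snd (q : LM M × ℂ) : (revC q).2 = conj q.2 := rfl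
@[simp] theorem iterC_fst (p : ℕ) (q : LM M × ℂ) : (iterC p q).1 = iter p q.1 := rfl
@[simp] theorem iterC_snd (p : ℕ) (q : LM M × ℂ) : (iterC p q).2 = q.2 ^ p := rfl

@[simp] theorem deckC_deckC (q : LM M × ℂ) : deckC (deckC q) = q := by
  ext1 <;> simp

@[simp] theorem revC_revC (q : LM M × ℂ) : revC (revC q) = q := by
  ext1 <;> simp

@[simp] theorem rotC_zero (q : LM M × ℂ) : rotC 0 q = q := by
  ext1 <;> simp

@[simp] theorem rotC_one (q : LM M × ℂ) : rotC 1 q = q := by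
  ext1 <;> simp

theorem rotC_rotC (a b : ℝ) (q : LM M × ℂ) : rotC a (rotC b q) = rotC (a + b) q := by
  ext1 <;> simp [rot_rot]

theorem rotC_nat (n : ℕ) (q : LM M × ℂ) : rotC n q = q := by
  ext1
  · exact rot_nat n q.1
  · rfl

theorem iterate_rotC (a : ℝ) (n : ℕ) (q : LM M × ℂ) : (rotC a)^[n] q = rotC (n * a) q := by
  induction n with
  | zero => simp
  | succ n ih =>
    rw [Function.iterate_succ_apply', ih, rotC_rotC]
    congr 1
    push_cast
    ring

/-- The rotation by `1 / p` has order `p`. -/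
theorem iterate_rotC_self {p : ℕ} (hp : 0 < p) (q : LM M × ℂ) : (rotC (1 / p : ℝ))^[p] q = q := by
  have hp' : (p : ℝ) ≠ 0 := Nat.cast_ne_zero.2 hp.ne'
  rw [iterate_rotC, mul_one_div_cancel hp', rotC_one]

theorem deckC_rotC (a : ℝ) (q : LM M × ℂ) : deckC (rotC a q) = rotC a (deckC q) := rfl

theorem deckC_revC (q : LM M × ℂ) : deckC (revC q) = revC (deckC q) := by
  ext1 <;> simp

theorem revC_rotC (a : ℝ) (q : LM M × ℂ) : revC (rotC a q) = rotC (-a) (revC q) := by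
  ext1
  · exact rev_rot a q.1
  · rfl

/-- `r g = g⁻¹ r`. -/
theorem revC_rotC' (a : ℝ) (q : LM M × ℂ) : rotC a (revC (rotC a q)) = revC q := by
  rw [revC_rotC, rotC_rotC, add_neg_cancel, rotC_zero]

theorem rotC_iterC (a : ℝ) (p : ℕ) (q : LM M × ℂ) :
    rotC a (iterC p q) = iterC p (rotC (p * a) q) := by
  ext1
  · exact rot_iter a p q.1
  · rfl

theorem revC_iterC (p : ℕ) (q : LM M × ℂ) : revC (iterC p q) = iterC p (revC q) := by
  ext1
  · exact rev_iter p q.1
  · simp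

theorem deckC_iterC {p : ℕ} (hp : Odd p) (q : LM M × ℂ) : deckC (iterC p q) = iterC p (deckC q) := by
  ext1
  · rfl
  · simp [hp.neg_pow]

theorem rotC_iterC_self {p : ℕ} (hp : 0 < p) (q : LM M × ℂ) :
    rotC (1 / p : ℝ) (iterC p q) = iterC p q := by
  ext1
  · exact rot_iter_self hp q.1
  · rfl

theorem iterC_iterC (p r : ℕ) (q : LM M × ℂ) : iterC p (iterC r q) = iterC (r * p) q := by
  ext1
  · exact iter_iter p r q.1
  · simp [pow_mul]

@[simp] theorem iterC_one (q : LM M × ℂ) : iterC 1 q = q := by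
  ext1 <;> simp

/-! ### Invariance of `Xt` -/

theorem deckC_mem (h : q ∈ Xt H s) : deckC q ∈ Xt H s := ⟨h.1, by simpa using h.2⟩

theorem deckC_mem_iff : deckC q ∈ Xt H s ↔ q ∈ Xt H s :=
  ⟨fun h => by simpa using deckC_mem h, deckC_mem⟩

theorem rotC_mem (h : q ∈ Xt H s) (a : ℝ) : rotC a q ∈ Xt H s :=
  ⟨rot_mem h.1 a, by rw [rotC_snd, rotC_fst, H.hol_rot, h.2]⟩

theorem rotC_mem_iff {a : ℝ} : rotC a q ∈ Xt H s ↔ q ∈ Xt H s :=
  ⟨fun h => by simpa [rotC_rotC] using rotC_mem h (-a), fun h => rotC_mem h a⟩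

theorem revC_mem (h : q ∈ Xt H s) : revC q ∈ Xt H s :=
  ⟨rev_mem h.1, by rw [revC_snd, revC_fst, H.hol_rev, ← map_pow, h.2]⟩

theorem revC_mem_iff : revC q ∈ Xt H s ↔ q ∈ Xt H s :=
  ⟨fun h => by simpa using revC_mem h, revC_mem⟩

theorem iterC_mem (h : q ∈ Xt H s) (p : ℕ) : iterC p q ∈ Xt H (p * s) :=
  ⟨iter_mem h.1 p, by rw [iterC_snd, iterC_fst, H.hol_iter, ← h.2, ← pow_mul, ← pow_mul, mul_comm]⟩

theorem image_deckC : deckC '' Xt H s = Xt H s :=
  Subset.antisymm (image_subset_iff.2 fun _ => deckC_mem)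
    fun q hq => ⟨deckC q, deckC_mem hq, deckC_deckC q⟩

theorem image_rotC (a : ℝ) : rotC a '' Xt H s = Xt H s :=
  Subset.antisymm (image_subset_iff.2 fun _ h => rotC_mem h a)
    fun q hq => ⟨rotC (-a) q, rotC_mem hq _, by rw [rotC_rotC, add_neg_cancel, rotC_zero]⟩

theorem image_revC : revC '' Xt H s = Xt H s :=
  Subset.antisymm (image_subset_iff.2 fun _ => revC_mem)
    fun q hq => ⟨revC q, revC_mem hq, revC_revC q⟩

/-! ### Isometries -/

theorem isometry_deckC : Isometry (deckC (M := M)) :=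
  Isometry.of_dist_eq fun q q' => by simp [Prod.dist_eq]

theorem isometry_rotC (a : ℝ) : Isometry (rotC (M := M) a) :=
  Isometry.of_dist_eq fun q q' => by
    simp [Prod.dist_eq, (isometry_rot a).dist_eq]

theorem isometry_revC : Isometry (revC (M := M)) :=
  Isometry.of_dist_eq fun q q' => by
    simp [Prod.dist_eq, isometry_rev.dist_eq, Complex.dist_conj_conj]

theorem continuous_deckC : Continuous (deckC (M := M)) := isometry_deckC.continuous
theorem continuous_rotC (a : ℝ) : Continuous (rotC (M := M) a) := (isometry_rotC a).continuous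
theorem continuous_revC : Continuous (revC (M := M)) := isometry_revC.continuous

theorem continuous_iterC {p : ℕ} (hp : 0 < p) : Continuous (iterC (M := M) p) :=
  ((isometry_iter hp).continuous.comp continuous_fst).prodMk (continuous_snd.pow p)

/-- The rotations act jointly continuously on `Xt H s`. -/
theorem dist_rotC_rotC_le (h0 : 0 ≤ s) (h : q ∈ Xt H s) (a b : ℝ) :
    dist (rotC a q) (rotC b q) ≤ s * Real.sqrt |a - b| := by
  rw [Prod.dist_eq]
  refine max_le (dist_rot_le h0 h.1 a b) ?_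
  simp only [rotC_snd, dist_self]
  positivity

/-- The deck transformation moves every point by `2`. -/
theorem dist_deckC (h : q ∈ Xt H s) : dist (deckC q) q = 2 := by
  have h1 : dist (deckC q).2 q.2 = 2 := by
    rw [deckC_snd, dist_eq_norm, show -q.2 - q.2 = -(2 * q.2) by ring, norm_neg, norm_mul,
      norm_snd h]
    norm_num
  rw [Prod.dist_eq, h1, deckC_fst, dist_self]
  norm_num

theorem deckC_ne (h : q ∈ Xt H s) : deckC q ≠ q := by
  intro h1
  have := dist_deckC h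
  rw [h1, dist_self] at this
  norm_num at this

/-- The fibres have two points. -/
theorem eq_or_eq_deckC (h : q ∈ Xt H s) (h' : q' ∈ Xt H s') (h1 : q'.1 = q.1) :
    q' = q ∨ q' = deckC q := by
  have h2 : q'.2 ^ 2 = q.2 ^ 2 := by rw [h.2, h'.2, h1]
  rcases sq_eq_sq_iff_eq_or_eq_neg.1 h2 with h3 | h3
  · exact Or.inl (Prod.ext h1 h3)
  · exact Or.inr (Prod.ext h1 h3)

/-- Two points over nearby loops: `z` is close to `z'` or to `-z'`. -/
theorem norm_sub_mul_norm_add (h : q ∈ Xt H s) (h' : q' ∈ Xt H s') :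
    ‖q.2 - q'.2‖ * ‖q.2 + q'.2‖ = ‖H.hol q.1 - H.hol q'.1‖ := by
  rw [← norm_mul, ← h.2, ← h'.2]
  congr 1
  ring

theorem exists_mem_Xt {g : LM M} (hg : g ∈ XE M s) : ∃ z, (g, z) ∈ Xt H s := by
  obtain ⟨z, hz⟩ := IsAlgClosed.exists_pow_nat_eq (H.hol g) two_pos
  exact ⟨z, hg, hz⟩

theorem image_fst_Xt : Prod.fst '' Xt H s = XE M s := by
  ext g
  constructor
  · rintro ⟨q, hq, rfl⟩
    exact hq.1
  · intro hg
    obtain ⟨z, hz⟩ := exists_mem_Xt (H := H) hg
    exact ⟨_, hz, rfl⟩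

/-! ### The fixed points of the rotation by `1 / p` -/

/-- The fixed set of the rotation by `1 / p` in the ambient space. -/
def FixC (M : Type*) [MetricSpace M] (p : ℕ) : Set (LM M × ℂ) := {q | rotC (1 / p : ℝ) q = q}

theorem mem_FixC {p : ℕ} : q ∈ FixC M p ↔ rot (1 / p : ℝ) q.1 = q.1 := by
  refine ⟨fun h => congrArg Prod.fst h, fun h => Prod.ext h rfl⟩

theorem isClosed_FixC {p : ℕ} : IsClosed (FixC M p) :=
  isClosed_eq (continuous_rotC _) continuous_id

/-- The `p`-th root of a loop which is a `p`-fold iterate. -/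
noncomputable def rootL (p : ℕ) (g : LM M) : LM M :=
  open Classical in if h : ∃ g', iter p g' = g then h.choose else g

theorem iter_injective {p : ℕ} (hp : 0 < p) : Function.Injective (iter (M := M) p) :=
  (isometry_iter hp).injective

theorem rootL_iter {p : ℕ} (hp : 0 < p) (g : LM M) : rootL p (iter p g) = g := by
  have h : ∃ g', iter p g' = iter p g := ⟨g, rfl⟩
  rw [rootL, dif_pos h]
  exact iter_injective hp h.choose_spec

theorem iter_rootL {p : ℕ} (hp : 0 < p) {g : LM M} (h : rot (1 / p : ℝ) g = g) :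
    iter p (rootL p g) = g := by
  obtain ⟨g', rfl⟩ := exists_iter_of_fixed hp h
  rw [rootL_iter hp]

theorem fn_rootL {p : ℕ} (hp : 0 < p) {g : LM M} (h : rot (1 / p : ℝ) g = g) (t : ℝ) :
    fn (rootL p g) t = fn g (t / p) := by
  have hp' : (p : ℝ) ≠ 0 := Nat.cast_ne_zero.2 hp.ne'
  conv_rhs => rw [← iter_rootL hp h]
  rw [fn_iter, mul_div_cancel₀ _ hp']

theorem dist_rootL {p : ℕ} (hp : 0 < p) {g g' : LM M} (h : rot (1 / p : ℝ) g = g)
    (h' : rot (1 / p : ℝ) g' = g') : dist (rootL p g) (rootL p g') = dist g g' := by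
  rw [← (isometry_iter hp).dist_eq, iter_rootL hp h, iter_rootL hp h']

theorem rootL_rev {p : ℕ} (hp : 0 < p) {g : LM M} (h : rot (1 / p : ℝ) g = g) :
    rootL p (rev g) = rev (rootL p g) := by
  have h1 : rev g = iter p (rev (rootL p g)) := by rw [← rev_iter, iter_rootL hp h]
  rw [h1, rootL_iter hp]

/-- The inverse of `iterC p` on the fixed set of the rotation by `1 / p`, for odd `p`. -/
noncomputable def rootC (H : Hol M) (p : ℕ) (q : LM M × ℂ) : LM M × ℂ :=
  (rootL p q.1, q.2 * conj (H.hol (rootL p q.1)) ^ ((p - 1) / 2))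

@[simp] theorem rootC_fst (p : ℕ) (q : LM M × ℂ) : (rootC H p q).1 = rootL p q.1 := rfl

theorem rootC_iterC {p : ℕ} (hp : Odd p) (h : q ∈ Xt H s) : rootC H p (iterC p q) = q := by
  obtain ⟨m, rfl⟩ := hp
  have hm : (2 * m + 1 - 1) / 2 = m := by omega
  have h1 : rootL (2 * m + 1) (iter (2 * m + 1) q.1) = q.1 := rootL_iter (by omega) _
  ext1
  · exact h1
  · change q.2 ^ (2 * m + 1) * conj (H.hol (rootL (2 * m + 1) (iter (2 * m + 1) q.1))) ^
      ((2 * m + 1 - 1) / 2) = q.2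
    rw [h1, hm, ← h.2, map_pow, ← pow_mul]
    calc q.2 ^ (2 * m + 1) * conj q.2 ^ (2 * m) = q.2 * (q.2 * conj q.2) ^ (2 * m) := by
          rw [mul_pow]; ring
      _ = q.2 := by rw [snd_mul_conj h, one_pow, mul_one]

theorem hol_iter_rootL (H : Hol M) {p : ℕ} (hp : 0 < p) {g : LM M} (h : rot (1 / p : ℝ) g = g) :
    H.hol g = H.hol (rootL p g) ^ p := by
  conv_lhs => rw [← iter_rootL hp h]
  rw [H.hol_iter]

theorem iterC_rootC {p : ℕ} (hp : Odd p) (h : q ∈ Xt H s) (hf : q ∈ FixC M p) :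
    iterC p (rootC H p q) = q := by
  obtain ⟨m, rfl⟩ := hp
  have hm : (2 * m + 1 - 1) / 2 = m := by omega
  have hfix := mem_FixC.1 hf
  have h1 : iter (2 * m + 1) (rootL (2 * m + 1) q.1) = q.1 := iter_rootL (by omega) hfix
  have h2 := hol_iter_rootL H (by omega) hfix
  have h3 := H.mul_conj_hol (rootL (2 * m + 1) q.1)
  ext1
  · exact h1
  · change (q.2 * conj (H.hol (rootL (2 * m + 1) q.1)) ^ ((2 * m + 1 - 1) / 2)) ^ (2 * m + 1) = q.2
    rw [hm]
    set w := H.hol (rootL (2 * m + 1) q.1) with hw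
    calc (q.2 * conj w ^ m) ^ (2 * m + 1)
        = q.2 * (q.2 ^ 2) ^ m * conj w ^ (m * (2 * m + 1)) := by
          rw [mul_pow, ← pow_mul, ← pow_mul, pow_succ]; ring
      _ = q.2 * (w * conj w) ^ (m * (2 * m + 1)) := by
          rw [h.2, h2, mul_pow, ← pow_mul]; ring
      _ = q.2 := by rw [h3, one_pow, mul_one]

theorem rootC_mem {p : ℕ} (hp : Odd p) (h : q ∈ Xt H (p * s)) (hf : q ∈ FixC M p) :
    rootC H p q ∈ Xt H s := by
  have hp0 : 0 < p := hp.pos
  have hfix := mem_FixC.1 hf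
  refine ⟨?_, ?_⟩
  · refine mem_of_iter_mem hp0 ?_
    rw [rootC_fst, iter_rootL hp0 hfix]
    exact h.1
  · obtain ⟨m, rfl⟩ := hp
    have hm : (2 * m + 1 - 1) / 2 = m := by omega
    have h2 := hol_iter_rootL H hp0 hfix
    have h3 := H.mul_conj_hol (rootL (2 * m + 1) q.1)
    change (q.2 * conj (H.hol (rootL (2 * m + 1) q.1)) ^ ((2 * m + 1 - 1) / 2)) ^ 2 =
      H.hol (rootL (2 * m + 1) q.1)
    rw [hm]
    set w := H.hol (rootL (2 * m + 1) q.1) with hw
    calc (q.2 * conj w ^ m) ^ 2 = q.2 ^ 2 * conj w ^ (2 * m) := by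
          rw [mul_pow, ← pow_mul, mul_comm m 2]
      _ = w * (w * conj w) ^ (2 * m) := by rw [h.2, h2, mul_pow]; ring
      _ = w := by rw [h3, one_pow, mul_one]

/-- `iterC p` is a bijection from `Xt H s` to the fixed points of the rotation by `1 / p` in
`Xt H (p * s)`, for odd `p`. -/
theorem bijOn_iterC {p : ℕ} (hp : Odd p) :
    BijOn (iterC p) (Xt H s) (Xt H (p * s) ∩ FixC M p) := by
  refine ⟨fun q hq => ⟨iterC_mem hq p, rotC_iterC_self hp.pos q⟩, fun q hq q' hq' h => ?_,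
    fun q hq => ⟨rootC H p q, rootC_mem hp hq.1 hq.2, iterC_rootC hp hq.1 hq.2⟩⟩
  rw [← rootC_iterC hp hq, ← rootC_iterC hp hq', h]

theorem image_iterC {p : ℕ} (hp : Odd p) :
    iterC p '' Xt H s = Xt H (p * s) ∩ FixC M p := (bijOn_iterC hp).image_eq

theorem bijOn_rootC {p : ℕ} (hp : Odd p) :
    BijOn (rootC H p) (Xt H (p * s) ∩ FixC M p) (Xt H s) := by
  refine ⟨fun q hq => rootC_mem hp hq.1 hq.2, fun q hq q' hq' h => ?_,
    fun q hq => ⟨iterC p q, ⟨iterC_mem hq p, rotC_iterC_self hp.pos q⟩, rootC_iterC hp hq⟩⟩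
  rw [← iterC_rootC hp hq.1 hq.2, ← iterC_rootC hp hq'.1 hq'.2, h]

/-- The inverse is continuous. -/
theorem continuousOn_rootC {p : ℕ} (hp : Odd p) :
    ContinuousOn (rootC H p) (Xt H (p * s) ∩ FixC M p) := by
  have hp0 : 0 < p := hp.pos
  have h1 : ContinuousOn (fun q : LM M × ℂ => rootL p q.1) (Xt H (p * s) ∩ FixC M p) := by
    intro q hq
    rw [Metric.continuousWithinAt_iff]
    intro ε hε
    refine ⟨ε, hε, fun {q'} hq' hd => ?_⟩
    rw [dist_rootL hp0 (mem_FixC.1 hq'.2) (mem_FixC.1 hq.2)]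
    exact (le_max_left _ _).trans_lt hd
  refine h1.prodMk (continuousOn_snd.mul ((Complex.continuous_conj.comp_continuousOn ?_).pow _))
  exact (H.continuousOn_hol s).comp h1 fun q hq => (rootC_mem hp hq.1 hq.2).1

theorem deckC_rootC (p : ℕ) (q : LM M × ℂ) : deckC (rootC H p q) = rootC H p (deckC q) := by
  ext1
  · rfl
  · simp [rootC]

theorem revC_rootC {p : ℕ} (hp : 0 < p) (hf : q ∈ FixC M p) :
    revC (rootC H p q) = rootC H p (revC q) := by
  have h1 := rootL_rev hp (mem_FixC.1 hf)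
  ext1
  · exact h1.symm
  · change conj (q.2 * conj (H.hol (rootL p q.1)) ^ ((p - 1) / 2)) =
      conj q.2 * conj (H.hol (rootL p (rev q.1))) ^ ((p - 1) / 2)
    rw [h1, H.hol_rev, map_mul, map_pow]

theorem deckC_mem_FixC {p : ℕ} : deckC q ∈ FixC M p ↔ q ∈ FixC M p := by
  rw [mem_FixC, mem_FixC, deckC_fst]

theorem rotC_mem_FixC {p : ℕ} {a : ℝ} : rotC a q ∈ FixC M p ↔ q ∈ FixC M p := by
  rw [mem_FixC, mem_FixC, rotC_fst, rot_rot, add_comm, ← rot_rot,
    (isometry_rot (M := M) a).injective.eq_iff]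

theorem revC_mem_FixC {p : ℕ} : revC q ∈ FixC M p ↔ q ∈ FixC M p := by
  have key : ∀ g : LM M, rot (1 / p : ℝ) g = g → rot (1 / p : ℝ) (rev g) = rev g := by
    intro g h
    have h1 : rot (-(1 / p : ℝ)) (rev g) = rev g := by rw [← rev_rot, h]
    conv_lhs => rw [← h1]
    rw [rot_rot, add_neg_cancel, rot_zero]
  rw [mem_FixC, mem_FixC, revC_fst]
  exact ⟨fun h => by simpa using key _ h, key _⟩

/-! ### Level zero -/

theorem mem_XE_zero {g : LM M} : g ∈ XE M 0 ↔ ∃ x, g = cst x := by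
  constructor
  · intro h
    refine ⟨fn g 0, ext_fn fun t => ?_⟩
    have := dist_fn_le_of_mem h le_rfl t 0
    rw [zero_mul] at this
    exact dist_le_zero.1 this
  · rintro ⟨x, rfl⟩
    exact cst_mem x 0

theorem mem_Xt_zero : q ∈ Xt H 0 ↔ ∃ x, q = (cst x, 1) ∨ q = (cst x, -1) := by
  constructor
  · rintro ⟨h1, h2⟩
    obtain ⟨x, hx⟩ := mem_XE_zero.1 h1
    rw [hx, H.hol_cst, ← one_pow 2, sq_eq_sq_iff_eq_or_eq_neg] at h2
    exact ⟨x, h2.imp (fun h => Prod.ext hx h) fun h => Prod.ext hx h⟩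
  · rintro ⟨x, rfl | rfl⟩
    · exact ⟨cst_mem x 0, by simp [H.hol_cst]⟩
    · exact ⟨cst_mem x 0, by simp [H.hol_cst]⟩

theorem rev_cst (x : M) : rev (cst x) = cst x := ext_fn fun t => by simp

theorem rot_cst (a : ℝ) (x : M) : rot a (cst x) = cst x := ext_fn fun t => by simp

theorem isometry_cst [Nonempty M] : Isometry (cst (M := M)) :=
  Isometry.of_dist_eq fun x y => le_antisymm
    ((dist_le_iff dist_nonneg).2 fun t => by simp) (by simpa using dist_fn_le (cst x) (cst y) 0)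

/-- The reversal is the identity at level zero. -/
theorem revC_of_mem_zero (h : q ∈ Xt H 0) : revC q = q := by
  obtain ⟨x, rfl | rfl⟩ := mem_Xt_zero.1 h
  · ext1
    · exact rev_cst x
    · simp
  · ext1
    · exact rev_cst x
    · simp

theorem rotC_of_mem_zero (a : ℝ) (h : q ∈ Xt H 0) : rotC a q = q := by
  obtain ⟨x, rfl | rfl⟩ := mem_Xt_zero.1 h
  · exact Prod.ext (rot_cst a x) rfl
  · exact Prod.ext (rot_cst a x) rfl

end Vale.Agent.P216.H288
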