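import Vale.Agent.P216.L250.Concat

/-!
# Holonomy structures on the loops of finite energy (P216, Theorem A)

`Hol M` is the only interface through which the double cover of the energy sublevels is used.
All symmetry formulas hold for every loop (junk value `1` on loops of infinite energy); the
constructor `Hol.ofFinE` builds the structure from formulas on loops of finite energy only.
-/

namespace Vale.Agent.P216.H288

open Set Filter Topology Vale.Agent.P216.L250
open scoped ComplexConjugate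

variable {M : Type*} [MetricSpace M]

/-- The loop has finite energy. -/
def FinE (g : LM M) : Prop := ∃ C, HasE (fn g) C

theorem finE_iff {g : LM M} : FinE g ↔ ∃ s, 0 ≤ s ∧ g ∈ XE M s := by
  constructor
  · rintro ⟨C, hC⟩
    refine ⟨Real.sqrt C, Real.sqrt_nonneg _, ?_⟩
    rw [mem_XE, Real.sq_sqrt hC.nonneg]
    exact hC
  · rintro ⟨s, -, hs⟩
    exact ⟨_, hs⟩

theorem finE_of_mem {g : LM M} {s : ℝ} (h : g ∈ XE M s) : FinE g := ⟨_, h⟩

theorem FinE.rot {g : LM M} (h : FinE g) (a : ℝ) : FinE (rot a g) := by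
  obtain ⟨s, -, hs⟩ := finE_iff.1 h
  exact finE_of_mem (rot_mem hs a)

theorem finE_rot_iff {g : LM M} {a : ℝ} : FinE (rot a g) ↔ FinE g := by
  refine ⟨fun h => ?_, fun h => h.rot a⟩
  have := h.rot (-a)
  rwa [rot_rot, neg_add_cancel, rot_zero] at this

theorem FinE.rev {g : LM M} (h : FinE g) : FinE (rev g) := by
  obtain ⟨s, -, hs⟩ := finE_iff.1 h
  exact finE_of_mem (rev_mem hs)

theorem finE_rev_iff {g : LM M} : FinE (rev g) ↔ FinE g := by
  refine ⟨fun h => ?_, fun h => h.rev⟩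
  have := h.rev
  rwa [rev_rev] at this

theorem FinE.iter {g : LM M} (h : FinE g) (p : ℕ) : FinE (iter p g) := by
  obtain ⟨s, -, hs⟩ := finE_iff.1 h
  exact finE_of_mem (iter_mem hs p)

theorem finE_iter_iff {g : LM M} {p : ℕ} (hp : 0 < p) : FinE (iter p g) ↔ FinE g := by
  refine ⟨fun h => ?_, fun h => h.iter p⟩
  obtain ⟨s, -, hs⟩ := finE_iff.1 h
  have hp' : (p : ℝ) ≠ 0 := Nat.cast_ne_zero.2 hp.ne'
  refine finE_of_mem (s := s / p) (mem_of_iter_mem hp ?_)
  rwa [mul_div_cancel₀ _ hp']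

theorem finE_cst (x : M) : FinE (cst x) := finE_of_mem (cst_mem x 0)

theorem iter_zero_eq (g : LM M) : iter 0 g = cst (fn g 0) := ext_fn fun t => by
  simp

theorem FinE.cc {w g : LM M} (hw : FinE w) (hg : FinE g) {c : ℝ} (hc : 0 < c ∧ c < 1)
    (h : fn w 0 = fn g 0) : FinE (cc c w g) := by
  obtain ⟨B, hB⟩ := hw
  obtain ⟨C, hC⟩ := hg
  exact ⟨_, hasE_cc hc h hB hC⟩

theorem FinE.reparam {g : LM M} (hg : FinE g) {L : ℝ} {φ : ℝ → ℝ} (h : Rep L φ) :
    FinE (reparam h g) := by
  obtain ⟨C, hC⟩ := hg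
  exact ⟨_, HasE.reparam h hC⟩

/-- A holonomy on the loops of finite energy of `M`. -/
structure Hol (M : Type*) [MetricSpace M] where
  /-- the holonomy -/
  hol : LM M → ℂ
  norm_hol : ∀ g, ‖hol g‖ = 1
  continuousOn_hol : ∀ s, ContinuousOn hol (XE M s)
  hol_rot : ∀ a g, hol (rot a g) = hol g
  hol_rev : ∀ g, hol (rev g) = conj (hol g)
  hol_iter : ∀ (p : ℕ) g, hol (iter p g) = hol g ^ p
  hol_cst : ∀ x, hol (cst x) = 1
  hol_reparam : ∀ {L : ℝ} {φ : ℝ → ℝ} (h : Rep L φ) g, FinE g → hol (reparam h g) = hol g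
  hol_cc : ∀ {c : ℝ} {w g : LM M}, 0 < c ∧ c < 1 → fn w 0 = fn g 0 → FinE w → FinE g →
    hol (cc c w g) = hol w * hol g

/-- Construction of a holonomy from formulas on the loops of finite energy. -/
noncomputable def Hol.ofFinE (h : LM M → ℂ) (norm_h : ∀ g, FinE g → ‖h g‖ = 1)
    (cont : ∀ s, 0 ≤ s → ContinuousOn h (XE M s))
    (h_rot : ∀ a g, FinE g → h (rot a g) = h g)
    (h_rev : ∀ g, FinE g → h (rev g) = conj (h g))
    (h_iter : ∀ (p : ℕ) g, 0 < p → FinE g → h (iter p g) = h g ^ p)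
    (h_cst : ∀ x, h (cst x) = 1)
    (h_reparam : ∀ {L : ℝ} {φ : ℝ → ℝ} (hφ : Rep L φ) g, FinE g → h (reparam hφ g) = h g)
    (h_cc : ∀ {c : ℝ} {w g : LM M}, 0 < c ∧ c < 1 → fn w 0 = fn g 0 → FinE w → FinE g →
      h (cc c w g) = h w * h g) : Hol M where
  hol g := open Classical in if FinE g then h g else 1
  norm_hol g := by
    split_ifs with hg
    · exact norm_h g hg
    · exact norm_one
  continuousOn_hol s := by
    have h1 : XE M s = XE M |s| := by
      ext g; rw [mem_XE, mem_XE, sq_abs]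
    rw [h1]
    refine (cont |s| (abs_nonneg s)).congr fun g hg => ?_
    rw [if_pos (finE_of_mem hg)]
  hol_rot a g := by
    by_cases hg : FinE g
    · rw [if_pos hg, if_pos (hg.rot a), h_rot a g hg]
    · rw [if_neg hg, if_neg fun h => hg (finE_rot_iff.1 h)]
  hol_rev g := by
    by_cases hg : FinE g
    · rw [if_pos hg, if_pos hg.rev, h_rev g hg]
    · rw [if_neg hg, if_neg fun h => hg (finE_rev_iff.1 h), map_one]
  hol_iter p g := by
    rcases Nat.eq_zero_or_pos p with rfl | hp
    · rw [iter_zero_eq, if_pos (finE_cst _), h_cst, pow_zero]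
    · by_cases hg : FinE g
      · rw [if_pos hg, if_pos (hg.iter p), h_iter p g hp hg]
      · rw [if_neg hg, if_neg fun h => hg ((finE_iter_iff hp).1 h), one_pow]
  hol_cst x := by rw [if_pos (finE_cst x), h_cst]
  hol_reparam hφ g hg := by
    rw [if_pos (hg.reparam hφ), if_pos hg, h_reparam hφ g hg]
  hol_cc hc h0 hw hg := by
    rw [if_pos (hw.cc hg hc h0), if_pos hw, if_pos hg, h_cc hc h0 hw hg]

namespace Hol

variable (H : Hol M)

theorem hol_ne_zero (g : LM M) : H.hol g ≠ 0 := by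
  intro h
  have := H.norm_hol g
  rw [h, norm_zero] at this
  exact zero_ne_one this

theorem mul_conj_hol (g : LM M) : H.hol g * conj (H.hol g) = 1 := by
  rw [Complex.mul_conj, Complex.normSq_eq_norm_sq, H.norm_hol]
  norm_num

theorem conj_hol (g : LM M) : conj (H.hol g) = (H.hol g)⁻¹ :=
  eq_inv_of_mul_eq_one_right (H.mul_conj_hol g)

end Hol

/-- The trivial holonomy (the structure is not empty). -/
noncomputable def Hol.triv : Hol M where
  hol _ := 1
  norm_hol _ := norm_one
  continuousOn_hol _ := continuousOn_const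
  hol_rot _ _ := rfl
  hol_rev _ := by simp
  hol_iter _ _ := by simp
  hol_cst _ := rfl
  hol_reparam _ _ _ := rfl
  hol_cc _ _ _ _ := by simp

end Vale.Agent.P216.H288
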